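import Vale.Agent.P004F.Pat.Ul
import Vale.Agent.P014U.Base

/-!
# P014U, port of P004F, block PAT: the ultralimit of sequences in `ℤ_[pp]⟦X⟧` and in its finite quotients
-/

set_option linter.all false

noncomputable section

namespace Vale.Agent.P014U.X4F.Pat

export Vale.Agent.P004F.Pat (U U_of U_ge U_fin U_bdd)

variable [Pp]

open Filter PowerSeries Topology Function

/-- the Iwasawa algebra -/
abbrev La : Type := ℤ_[pp]⟦X⟧

/-- the ideals which define the topology -/
def Im (k : ℕ) : Ideal La := Ideal.span {(pp : La) ^ k, X ^ k}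

theorem two_C (k : ℕ) : (pp : La) ^ k = C ((pp : ℤ_[pp]) ^ k) := by rw [map_pow, map_natCast]

theorem mem_Im {k : ℕ} {f : La} : f ∈ Im k ↔ ∀ i < k, (pp : ℤ_[pp]) ^ k ∣ coeff i f := by
  rw [Im, Ideal.mem_span_pair]
  constructor
  · rintro ⟨a, b, rfl⟩ i hi
    rw [map_add, two_C, coeff_mul_C, (X_pow_dvd_iff.1 (Dvd.intro_left b rfl)) i hi, add_zero]
    exact Dvd.intro_left _ rfl
  · intro h
    choose c hc using h
    obtain ⟨b, hb⟩ : X ^ k ∣ f - (mk fun i => if h : i < k then c i h else 0) * (pp : La) ^ k :=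
      X_pow_dvd_iff.2 fun i hi => by
        rw [map_sub, two_C, coeff_mul_C, coeff_mk, dif_pos hi, hc i hi, mul_comm, sub_self]
    exact ⟨mk fun i => if h : i < k then c i h else 0, b, by linear_combination -hb⟩

theorem Im_anti {k l : ℕ} (h : k ≤ l) : Im l ≤ Im k := fun f hf =>
  mem_Im.2 fun i hi => (pow_dvd_pow _ h).trans (mem_Im.1 hf i (hi.trans_le h))

theorem two_Im (k : ℕ) : (pp : La) ^ k ∈ Im k := Ideal.subset_span (by simp)

theorem X_Im (k : ℕ) : (X : La) ^ k ∈ Im k := Ideal.subset_span (by simp)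

theorem dvd_iff_norm {k : ℕ} {x : ℤ_[pp]} : (pp : ℤ_[pp]) ^ k ∣ x ↔ ‖x‖ ≤ (pp : ℝ) ^ (-k : ℤ) := by
  have := PadicInt.norm_le_pow_iff_mem_span_pow x k
  rw [Ideal.mem_span_singleton] at this
  exact_mod_cast this.symm

theorem Im_ext {f : La} (h : ∀ k, f ∈ Im k) : f = 0 := by
  ext1 i
  rw [map_zero, ← PadicInt.ext_of_toZModPow]
  intro n
  rw [map_zero, ← RingHom.mem_ker, PadicInt.ker_toZModPow, Ideal.mem_span_singleton]
  exact_mod_cast (pow_dvd_pow _ (le_max_left n (i + 1))).trans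
    (mem_Im.1 (h (max n (i + 1))) i (lt_of_lt_of_le i.lt_succ_self (le_max_right _ _)))

/-- `a` is the limit of `x` -/
def Li (x : ℕ → La) (a : La) : Prop := ∀ k, ∀ᶠ j in U, x j - a ∈ Im k

theorem Li.uniq {x : ℕ → La} {a b : La} (h : Li x a) (h' : Li x b) : a = b :=
  sub_eq_zero.1 (Im_ext fun k => by
    obtain ⟨j, h1, h2⟩ := ((h k).and (h' k)).exists
    simpa using (Im k).sub_mem h2 h1)

theorem ex_Li (x : ℕ → La) : ∃ a, Li x a := by
  refine ⟨mk fun i => (U.map fun j => coeff i (x j)).lim, fun k => ?_⟩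
  simp only [mem_Im]
  refine (eventually_all_finite (Set.finite_Iio k)).2 fun i _ => ?_
  have h : Tendsto (fun j => coeff i (x j)) U (𝓝 _) := (U.map fun j => coeff i (x j)).le_nhds_lim
  refine (Metric.tendsto_nhds.1 h ((pp : ℝ) ^ (-k : ℤ)) (zpow_pos (Nat.cast_pos.2 pp_pos) _)).mono fun j e => ?_
  rw [dvd_iff_norm, map_sub, coeff_mk, ← dist_eq_norm]
  exact e.le

/-- **the ultralimit** -/
def ul : (ℕ → La) →+* La where
  toFun x := (ex_Li x).choose
  map_one' := (ex_Li _).choose_spec.uniq fun k => .of_forall fun j => by simp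
  map_zero' := (ex_Li _).choose_spec.uniq fun k => .of_forall fun j => by simp
  map_add' x y := (ex_Li _).choose_spec.uniq fun k =>
    (((ex_Li x).choose_spec k).and ((ex_Li y).choose_spec k)).mono fun j e => by
      convert (Im k).add_mem e.1 e.2 using 1
      rw [Pi.add_apply]; ring
  map_mul' x y := (ex_Li _).choose_spec.uniq fun k =>
    (((ex_Li x).choose_spec k).and ((ex_Li y).choose_spec k)).mono fun j e => by
      convert (Im k).add_mem ((Im k).mul_mem_right (y j) e.1)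
        ((Im k).mul_mem_left (ex_Li x).choose e.2) using 1
      rw [Pi.mul_apply]; ring

theorem ul_spec (x : ℕ → La) (k : ℕ) : ∀ᶠ j in U, x j - ul x ∈ Im k := (ex_Li x).choose_spec k

theorem ul_eq {x : ℕ → La} {a : La} (h : ∀ k, ∀ᶠ j in U, x j - a ∈ Im k) : ul x = a :=
  Li.uniq (ul_spec x) h

theorem ul_const (a : La) : ul (fun _ => a) = a := ul_eq fun k => .of_forall fun j => by simp

theorem ul_zero {x : ℕ → La} : ul x = 0 ↔ ∀ k, ∀ᶠ j in U, x j ∈ Im k :=
  ⟨fun h k => by simpa [h] using ul_spec x k, fun h => ul_eq (by simpa using h)⟩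

theorem ul_congr {x y : ℕ → La} (h : ∀ k, ∀ᶠ j in U, x j - y j ∈ Im k) : ul x = ul y := by
  rw [← sub_eq_zero, ← map_sub]
  exact ul_zero.2 h

theorem ul_ae {x y : ℕ → La} (h : ∀ᶠ j in U, x j = y j) : ul x = ul y :=
  ul_congr fun k => h.mono fun j e => by simp [e]

theorem ul_Im {x : ℕ → La} {k : ℕ} : ul x ∈ Im k ↔ ∀ᶠ j in U, x j ∈ Im k :=
  ⟨fun h => (ul_spec x k).mono fun j e => by simpa using (Im k).add_mem e h, fun h => by
    obtain ⟨j, h1, h2⟩ := (h.and (ul_spec x k)).exists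
    simpa using (Im k).sub_mem h1 h2⟩

/-- bounded valuation: the limit is not zero -/
theorem ul_ne {x : ℕ → La} {k : ℕ} (h : ∀ᶠ j in U, x j ∉ Im k) : ul x ≠ 0 := fun e => by
  obtain ⟨j, h1, h2⟩ := (h.and (ul_zero.1 e k)).exists
  exact h1 h2

/-- diagonal form: a sequence in `Im (m j)` with `m j` tending to infinity -/
theorem ul_diag {x : ℕ → La} (h : ∀ᶠ j in U, x j ∈ Im j) : ul x = 0 :=
  ul_zero.2 fun k => (h.and (U_ge k)).mono fun j e => Im_anti e.2 e.1

/-- submodules of free modules are closed -/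
theorem clo {n : Type} [Finite n] (N : Submodule La (n → La)) {x : n → La}
    (h : ∀ k, ∃ y ∈ N, ∀ i, x i - y i ∈ Im k) : x ∈ N := by
  obtain ⟨r, v, hv⟩ := Submodule.fg_iff_exists_fin_generating_family.1 (IsNoetherian.noetherian N)
  choose y hy hk using h
  rw [← hv] at hy ⊢
  choose c hc using fun k => (Submodule.mem_span_range_iff_exists_fun La).1 (hy k)
  refine (Submodule.mem_span_range_iff_exists_fun La).2 ⟨fun a => ul fun k => c k a, funext fun i => ?_⟩
  have e : ul (fun _ => x i) - ul (∑ a, (fun k => c k a) * fun _ => v a i) = 0 := by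
    rw [← map_sub]
    refine ul_diag (.of_forall fun j => ?_)
    have := hk j i
    rw [← hc j] at this
    simpa [Finset.sum_apply] using this
  rw [ul_const, map_sum, sub_eq_zero] at e
  simp [e, ul_const, Finset.sum_apply]

theorem clo1 (J : Ideal La) {x : La} (h : ∀ k, x ∈ J ⊔ Im k) : x ∈ J := by
  have := clo (n := Unit) (Submodule.comap (LinearMap.proj (R := La) (φ := fun _ : Unit => La) ()) J) (x := fun _ => x) fun k => by
    obtain ⟨a, ha, b, hb, e⟩ := Submodule.mem_sup.1 (h k)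
    exact ⟨fun _ => a, ha, fun _ => by simpa [← e] using hb⟩
  exact this

theorem ul_mem (J : Ideal La) {x : ℕ → La} (h : ∀ k, ∀ᶠ j in U, x j ∈ J ⊔ Im k) : ul x ∈ J :=
  clo1 J fun k => by
    obtain ⟨j, h1, h2⟩ := ((h k).and (ul_spec x k)).exists
    simpa using (J ⊔ Im k).sub_mem h1 (Ideal.mem_sup_right h2)

/-! ## the finite quotients -/

/-- the finite quotients -/
abbrev Rk (k : ℕ) : Type := La ⧸ Im k

instance Rk.fin (k : ℕ) : Finite (Rk k) := by
  refine Finite.of_injective (β := Fin k → ZMod (pp ^ k))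
    (fun x i => PadicInt.toZModPow k (coeff i (Quotient.out x : La))) fun x y h => ?_
  rw [← Ideal.Quotient.mk_out x, ← Ideal.Quotient.mk_out y, Ideal.Quotient.eq, mem_Im]
  intro i hi
  have := congrFun h ⟨i, hi⟩
  rw [← sub_eq_zero, ← map_sub, ← RingHom.mem_ker, PadicInt.ker_toZModPow,
    Ideal.mem_span_singleton, ← map_sub] at this
  exact_mod_cast this

/-- the residue map -/
def rs : La →+* ZMod pp := PadicInt.toZMod.comp constantCoeff

theorem rs_zero {f : La} : rs f = 0 ↔ f ∈ Im 1 := by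
  rw [mem_Im, rs, RingHom.comp_apply, ← RingHom.mem_ker, PadicInt.ker_toZMod,
    PadicInt.maximalIdeal_eq_span_p, Ideal.mem_span_singleton]
  simp

theorem rs_unit {f : La} : IsUnit f ↔ rs f ≠ 0 := by
  rw [isUnit_iff_constantCoeff, rs, RingHom.comp_apply, Ne, ← RingHom.mem_ker, PadicInt.ker_toZMod,
    IsLocalRing.mem_maximalIdeal, mem_nonunits_iff, not_not]

theorem Im_one : Im 1 = IsLocalRing.maximalIdeal La := by
  ext f
  rw [IsLocalRing.mem_maximalIdeal, mem_nonunits_iff, rs_unit, not_not, rs_zero]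

instance Rk.nt (k : ℕ) : Nontrivial (Rk (k + 1)) :=
  Ideal.Quotient.nontrivial_iff.2 fun e => by
    have : (1 : La) ∈ Im 1 := Im_anti (Nat.le_add_left 1 k) (e ▸ Submodule.mem_top)
    simpa using rs_zero.2 this

instance Rk.loc (k : ℕ) : IsLocalRing (Rk (k + 1)) :=
  .of_surjective' (Ideal.Quotient.mk _) Ideal.Quotient.mk_surjective

/-- the residue map of a finite quotient -/
def rk (k : ℕ) : Rk (k + 1) →+* ZMod pp :=
  Ideal.Quotient.lift _ rs fun _ h => rs_zero.2 (Im_anti (Nat.le_add_left 1 k) h)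

theorem rk_mk (k : ℕ) (f : La) : rk k (Ideal.Quotient.mk _ f) = rs f := rfl

/-! ## systems of quotients -/

variable {R : ℕ → Type} [∀ j, CommRing (R j)] {p : ∀ j, La →+* R j}

variable (p) in
/-- quotients of `La` whose kernels tend to zero -/
structure Sy : Prop where
  sur : ∀ j, Surjective (p j)
  ker : ∀ k, ∀ᶠ j in U, ∀ x, p j x = 0 → x ∈ Im k

theorem Sy.std {m : ℕ → ℕ} (h : ∀ k, ∀ᶠ j in U, k ≤ m j) :
    Sy fun j => Ideal.Quotient.mk (Im (m j)) :=
  ⟨fun _ => Ideal.Quotient.mk_surjective, fun k => (h k).mono fun j e x hx =>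
    Im_anti e (Ideal.Quotient.eq_zero_iff_mem.1 hx)⟩

theorem Sy.succ : Sy fun j => Ideal.Quotient.mk (Im (j + 1)) :=
  .std fun k => (U_ge k).mono fun _ e => e.trans (Nat.le_succ _)

variable (hp : Sy p)

/-- a lift -/
def Sy.lf (j : ℕ) : R j → La := surjInv (hp.sur j)

theorem Sy.p_lf (j : ℕ) (x : R j) : p j (hp.lf j x) = x := surjInv_eq _ _

theorem Sy.congr {x y : ℕ → La} (hp : Sy p) (h : ∀ᶠ j in U, p j (x j) = p j (y j)) : ul x = ul y :=
  ul_congr fun k => (h.and (hp.ker k)).mono fun j e => e.2 _ (by rw [map_sub, e.1, sub_self])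

/-- **the ultralimit of a sequence of elements of the quotients** -/
def Sy.ur : (∀ j, R j) →+* La where
  toFun x := ul fun j => hp.lf j (x j)
  map_one' := by rw [← map_one ul]; exact hp.congr (.of_forall fun j => by simp [hp.p_lf])
  map_zero' := by rw [← map_zero ul]; exact hp.congr (.of_forall fun j => by simp [hp.p_lf])
  map_add' x y := by rw [← map_add]; exact hp.congr (.of_forall fun j => by simp [hp.p_lf])
  map_mul' x y := by rw [← map_mul]; exact hp.congr (.of_forall fun j => by simp [hp.p_lf])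

theorem Sy.ur_def (x : ∀ j, R j) : hp.ur x = ul fun j => hp.lf j (x j) := rfl

theorem Sy.ur_eq {x : ∀ j, R j} {y : ℕ → La} (h : ∀ᶠ j in U, x j = p j (y j)) : hp.ur x = ul y :=
  hp.congr (h.mono fun j e => by rw [hp.p_lf, e])

theorem Sy.ur_p (y : ℕ → La) : hp.ur (fun j => p j (y j)) = ul y := hp.ur_eq (.of_forall fun _ => rfl)

theorem Sy.ur_const (a : La) : hp.ur (fun j => p j a) = a := (hp.ur_p _).trans (ul_const a)

theorem Sy.ur_ae {x y : ∀ j, R j} (h : ∀ᶠ j in U, x j = y j) : hp.ur x = hp.ur y :=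
  ul_ae (h.mono fun j e => by rw [e])

/-- the limit is close to almost all terms -/
theorem Sy.ur_spec (x : ∀ j, R j) (k : ℕ) : ∀ᶠ j in U, ∀ y, p j y = x j → y - hp.ur x ∈ Im k :=
  ((ul_spec (fun j => hp.lf j (x j)) k).and (hp.ker k)).mono fun j e y hy => by
    have := (Im k).add_mem (e.2 (y - hp.lf j (x j)) (by rw [map_sub, hp.p_lf, hy, sub_self])) e.1
    rwa [sub_add_sub_cancel] at this

theorem Sy.ur_Im {x : ∀ j, R j} {k : ℕ} :
    hp.ur x ∈ Im k ↔ ∀ᶠ j in U, x j ∈ (Im k).map (p j) := by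
  rw [hp.ur_def, ul_Im]
  refine eventually_congr ((hp.ker k).mono fun j e => ⟨fun h => ?_, fun h => ?_⟩)
  · rw [← hp.p_lf j (x j)]; exact Ideal.mem_map_of_mem _ h
  · obtain ⟨y, h1, h2⟩ := (Ideal.mem_map_iff_of_surjective _ (hp.sur j)).1 h
    simpa using (Im k).add_mem (e (hp.lf j (x j) - y) (by rw [map_sub, hp.p_lf, h2, sub_self])) h1

theorem Sy.ur_mem (J : Ideal La) {x : ∀ j, R j} (h : ∀ᶠ j in U, x j ∈ J.map (p j)) : hp.ur x ∈ J :=
  ul_mem J fun k => (h.and (hp.ker k)).mono fun j e => by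
    obtain ⟨y, h1, h2⟩ := (Ideal.mem_map_iff_of_surjective _ (hp.sur j)).1 e.1
    have := e.2 (hp.lf j (x j) - y) (by rw [map_sub, hp.p_lf, h2, sub_self])
    simpa using (J ⊔ Im k).add_mem (Ideal.mem_sup_right this) (Ideal.mem_sup_left h1)

/-- the residue of the limit -/
theorem Sy.rs_ur {π : ∀ j, R j →+* ZMod pp} (hπ : ∀ j x, π j (p j x) = rs x) (x : ∀ j, R j) :
    ∀ᶠ j in U, π j (x j) = rs (hp.ur x) :=
  (hp.ur_spec x 1).mono fun j e => by
    have := rs_zero.2 (e _ (hp.p_lf j (x j)))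
    rw [map_sub, sub_eq_zero] at this
    rw [← this, ← hπ j, hp.p_lf]

/-! ## matrices -/

variable {m n o : Type}

/-- the limit of a sequence of matrices -/
def Sy.um (A : ∀ j, Matrix m n (R j)) : Matrix m n La := .of fun a b => hp.ur fun j => A j a b

theorem Sy.um_apply (A : ∀ j, Matrix m n (R j)) (a : m) (b : n) :
    hp.um A a b = hp.ur fun j => A j a b := rfl

theorem Sy.um_ae {A B : ∀ j, Matrix m n (R j)} (h : ∀ᶠ j in U, A j = B j) : hp.um A = hp.um B :=
  Matrix.ext fun a b => hp.ur_ae (h.mono fun j e => by rw [e])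

theorem Sy.um_const (A : Matrix m n La) : hp.um (fun j => A.map (p j)) = A :=
  Matrix.ext fun a b => hp.ur_const (A a b)

theorem Sy.um_zero : hp.um (fun j => (0 : Matrix m n (R j))) = 0 :=
  Matrix.ext fun a b => hp.ur.map_zero

theorem Sy.um_add (A B : ∀ j, Matrix m n (R j)) : hp.um (fun j => A j + B j) = hp.um A + hp.um B :=
  Matrix.ext fun a b => hp.ur.map_add _ _

theorem Sy.um_neg (A : ∀ j, Matrix m n (R j)) : hp.um (fun j => -A j) = -hp.um A :=
  Matrix.ext fun a b => hp.ur.map_neg _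

theorem Sy.um_sub (A B : ∀ j, Matrix m n (R j)) : hp.um (fun j => A j - B j) = hp.um A - hp.um B :=
  Matrix.ext fun a b => hp.ur.map_sub _ _

theorem Sy.um_smul (c : ∀ j, R j) (A : ∀ j, Matrix m n (R j)) :
    hp.um (fun j => c j • A j) = hp.ur c • hp.um A :=
  Matrix.ext fun a b => hp.ur.map_mul _ _

theorem Sy.um_sum {ι : Type} (s : Finset ι) (A : ι → ∀ j, Matrix m n (R j)) :
    hp.um (fun j => ∑ i ∈ s, A i j) = ∑ i ∈ s, hp.um (A i) :=
  Matrix.ext fun a b => by
    simp only [hp.um_apply, Matrix.sum_apply, ← map_sum]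
    exact congrArg _ (funext fun j => by simp [Finset.sum_apply])

theorem Sy.um_mul [Fintype n] (A : ∀ j, Matrix m n (R j)) (B : ∀ j, Matrix n o (R j)) :
    hp.um (fun j => A j * B j) = hp.um A * hp.um B :=
  Matrix.ext fun a b => by
    simp only [hp.um_apply, Matrix.mul_apply, ← map_mul, ← map_sum]
    exact congrArg _ (funext fun j => by simp [Finset.sum_apply])

theorem Sy.um_tr (A : ∀ j, Matrix m n (R j)) : hp.um (fun j => (A j).transpose) = (hp.um A).transpose :=
  rfl

theorem Sy.um_sub' {m' n' : Type} (A : ∀ j, Matrix m n (R j)) (f : m' → m) (g : n' → n) :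
    hp.um (fun j => (A j).submatrix f g) = (hp.um A).submatrix f g := rfl

theorem Sy.um_one [DecidableEq n] : hp.um (fun j => (1 : Matrix n n (R j))) = 1 := by
  rw [← hp.um_const 1]
  exact congrArg _ (funext fun j => by simp)

theorem Sy.um_det [Fintype n] [DecidableEq n] (A : ∀ j, Matrix n n (R j)) :
    (hp.um A).det = hp.ur fun j => (A j).det := by
  have e : hp.um A = hp.ur.mapMatrix (Matrix.of fun a b j => A j a b) := rfl
  rw [e, ← RingHom.map_det]
  exact congrArg _ (funext fun j => (Pi.evalRingHom R j).map_det _)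

theorem Sy.um_trace [Fintype n] (A : ∀ j, Matrix n n (R j)) :
    (hp.um A).trace = hp.ur fun j => (A j).trace := by
  simp only [Matrix.trace, Matrix.diag, hp.um_apply, ← map_sum]
  exact congrArg _ (funext fun j => by simp [Finset.sum_apply])

theorem Sy.um_spec [Finite m] [Finite n] (A : ∀ j, Matrix m n (R j)) (k : ℕ) :
    ∀ᶠ j in U, ∀ a b y, p j y = A j a b → y - hp.um A a b ∈ Im k :=
  eventually_all.2 fun a => eventually_all.2 fun b => hp.ur_spec (fun j => A j a b) k

theorem Sy.rs_um [Finite m] [Finite n] {π : ∀ j, R j →+* ZMod pp} (hπ : ∀ j x, π j (p j x) = rs x)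
    (A : ∀ j, Matrix m n (R j)) : ∀ᶠ j in U, (A j).map (π j) = (hp.um A).map rs :=
  (eventually_all.2 fun a => eventually_all.2 fun b => hp.rs_ur hπ fun j => A j a b).mono
    fun j e => Matrix.ext e

/-- solvability of linear systems passes to the limit -/
theorem Sy.um_solve [Fintype n] {A : ∀ j, Matrix m n (R j)} {B : ∀ j, Matrix o n (R j)} [Fintype o]
    (h : ∀ᶠ j in U, ∃ β : Matrix m o (R j), A j = β * B j) : 
    ∃ β : Matrix m o La, hp.um A = β * hp.um B := by
  classical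
  refine ⟨hp.um fun j => if e : ∃ β : Matrix m o (R j), A j = β * B j then e.choose else 0, ?_⟩
  rw [← hp.um_mul]
  exact hp.um_ae (h.mono fun j e => by rw [dif_pos e]; exact e.choose_spec)

end Vale.Agent.P014U.X4F.Pat
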