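import Vale.Agent.P004F.Pat.Lim
import Vale.Agent.P014U.X4F.Pat.Ul

/-! # P014U, port of P004F, block PAT: limits of matrices -/

set_option linter.all false

noncomputable section

namespace Vale.Agent.P014U.X4F.Pat

export Vale.Agent.P004F.Pat (sub_ac smul_ac single_ac Gs Co Fv dens ex_dv mk_b Ck gn ac_rows ac_gn ac_Q gn_zero span_gn
  ex_rw ex_lift ev ev_gn ev_ac sol ck_ext of_gn Ae lm lm_map lm_apply lm_zero lm_add lm_neg
  lm_sub lm_smul lm_sum lm_mul lm_tr lm_subm lm_rows lm_one lm_det)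

variable [Pp] {R : ℕ → Type} [∀ j, CommRing (R j)] {O : Type} [CommRing O] {m n : Type}

theorem Sy.ae {p : ∀ j, La →+* R j} (hp : Sy p) (φ : La →+* O) : Ae (φ.comp hp.ur) :=
  fun _ _ h => congrArg φ (hp.ur_ae h)

theorem lm_um {p : ∀ j, La →+* R j} (hp : Sy p) (φ : La →+* O) (A : ∀ j, Matrix m n (R j)) :
    lm (φ.comp hp.ur) A = (hp.um A).map φ := rfl

theorem lm_const {p : ∀ j, La →+* R j} (hp : Sy p) (φ : La →+* O) (A : Matrix m n La) :
    lm (φ.comp hp.ur) (fun j => A.map (p j)) = A.map φ := by rw [lm_um, hp.um_const]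

end Vale.Agent.P014U.X4F.Pat
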