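import Vale.Agent.P004F.Pat.Vec
import Vale.Agent.P014U.X4F.Pat.Ul

/-!
# P014U, port of P004F, block PAT: limits of vectors, spans, choice almost everywhere
-/

set_option linter.all false

noncomputable section

namespace Vale.Agent.P014U.X4F.Pat

export Vale.Agent.P004F.Pat (vm_mem U_ch)

variable [Pp]

open Matrix Submodule Set Filter Function

variable {R : ℕ → Type} [∀ j, CommRing (R j)] {p : ∀ j, La →+* R j} (hp : Sy p)

/-- the limit of vectors -/
def Sy.uv {α : Type} (x : ∀ j, α → R j) : α → La := fun a => hp.ur fun j => x j a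

section vec

variable {α I : Type}

theorem Sy.um_row (A : ∀ j, Matrix α I (R j)) (a : α) : hp.um A a = hp.uv fun j => A j a := rfl

theorem Sy.uv_ae {x y : ∀ j, α → R j} (h : ∀ᶠ j in U, x j = y j) : hp.uv x = hp.uv y :=
  funext fun a => hp.ur_ae (h.mono fun j e => by rw [e])

theorem Sy.uv_zero : hp.uv (fun j => (0 : α → R j)) = 0 := funext fun _ => hp.ur.map_zero

theorem Sy.uv_add (x y : ∀ j, α → R j) : hp.uv (fun j => x j + y j) = hp.uv x + hp.uv y :=
  funext fun _ => hp.ur.map_add _ _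

theorem Sy.uv_sub (x y : ∀ j, α → R j) : hp.uv (fun j => x j - y j) = hp.uv x - hp.uv y :=
  funext fun _ => hp.ur.map_sub _ _

theorem Sy.uv_smul (c : ∀ j, R j) (x : ∀ j, α → R j) :
    hp.uv (fun j => c j • x j) = hp.ur c • hp.uv x := funext fun _ => hp.ur.map_mul _ _

theorem Sy.uv_dot [Fintype α] (x y : ∀ j, α → R j) :
    hp.uv x ⬝ᵥ hp.uv y = hp.ur fun j => x j ⬝ᵥ y j := by
  simp only [dotProduct, Sy.uv, ← map_mul, ← map_sum]
  exact congrArg _ (funext fun j => by simp [Finset.sum_apply])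

theorem Sy.uv_vm [Fintype α] (x : ∀ j, α → R j) (A : ∀ j, Matrix α I (R j)) :
    hp.uv (fun j => x j ᵥ* A j) = hp.uv x ᵥ* hp.um A := funext fun b => (hp.uv_dot x fun j a => A j a b).symm

theorem Sy.uv_mv [Fintype I] (A : ∀ j, Matrix α I (R j)) (x : ∀ j, I → R j) :
    hp.uv (fun j => A j *ᵥ x j) = hp.um A *ᵥ hp.uv x := funext fun b => (hp.uv_dot (fun j => A j b) x).symm

/-- membership in the span of finitely many vectors passes to the limit -/
theorem Sy.uv_mem [Fintype α] [Fintype I] {B : ∀ j, α → I → R j} {v : ∀ j, I → R j}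
    (h : ∀ᶠ j in U, v j ∈ span (R j) (range (B j))) :
    hp.uv v ∈ span La (range fun a => hp.uv fun j => B j a) := by
  obtain ⟨β, e⟩ := hp.um_solve (A := fun j => .of fun _ : Unit => v j) (B := fun j => .of (B j))
    (h.mono fun j e => by
      obtain ⟨c, hc⟩ := (mem_span_range_iff_exists_fun _).1 e
      exact ⟨.of fun _ => c, Matrix.ext fun _ b => by
        simpa [mul_apply, Finset.sum_apply] using (congrFun hc b).symm⟩)
  refine (mem_span_range_iff_exists_fun _).2 ⟨β (), funext fun b => ?_⟩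
  rw [Finset.sum_apply]
  exact (congrFun (congrFun e ()) b).symm

theorem Sy.ur_dvd {a b : ∀ j, R j} (h : ∀ᶠ j in U, a j ∣ b j) : hp.ur a ∣ hp.ur b := by
  classical
  refine ⟨hp.ur fun j => if e : a j ∣ b j then e.choose else 0, ?_⟩
  rw [← map_mul]
  exact hp.ur_ae (h.mono fun j e => by rw [Pi.mul_apply, dif_pos e]; exact e.choose_spec)

end vec

end Vale.Agent.P014U.X4F.Pat
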